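import Vale.Agent.P319.S2.H920.Spec
import Vale.Agent.P319.SC.Gro

/-! P319, exponent `1/2`: A7 BLOCK. -/

namespace Vale.Agent.P319.S2.H257

open Finset Vale.Agent.P319.SC Vale.Agent.P319.SC.H323 Vale.Agent.P319.S2.H920

set_option linter.all false

variable {V ι : Type} [Fintype V] [DecidableEq V] [DecidableEq ι] {m : ℕ}

theorem two2 (𝒞 : Cfg V ι m) (hm : 3 ≤ m) {v w : V} (h : 𝒞.c1 w = 𝒞.c1 v) (hvw : v ≠ w) :
    2 ≤ (univ.filter fun z => 𝒞.c2 v z = 𝒞.c2 v w).card := by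
  have h1 := Gro.card_ne_one 𝒞 hm (ρ := 𝒞.c1 v) rfl h hvw
  have h2 : 0 < (univ.filter fun z => 𝒞.c2 v z = 𝒞.c2 v w).card :=
    card_pos.2 ⟨w, by simp⟩
  omega

theorem mk_block {l : ℕ} (ℱ : Cfg V ι (l + 2)) (hl : 5 ≤ l) {G : ℕ} {x u₂ u₃ y : V}
    (h1 : 2 ≤ (univ.filter fun z => ℱ.c2 y z = ℱ.c2 y x).card)
    (h2 : ℱ.c2 x u₂ = ℱ.c2 x y) (h2' : y ≠ u₂)
    (h3 : ℱ.c3 x u₂ u₃ = ℱ.c3 x u₂ y) (h3' : y ≠ u₃) (n : ℕ)
    (hn : n ≤ (ℱ.cls (ℱ.c1 y)).card) (K : Finset V)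
    (hK : ∀ w, ℱ.c3 x u₂ w = ℱ.c3 x u₂ y → ℱ.c3 x u₃ w = ℱ.c3 x u₃ y → w ∈ K)
    (hKn : K.card * 2 ^ (2 * G) ≤ 2 * n) : IsBlock ℱ G x u₂ u₃ y where
  hK := by
    refine le_trans (Nat.mul_le_mul_right _ (Finset.card_le_card ?_)) (hKn.trans (by omega))
    intro w hw
    rw [mem_filter] at hw
    obtain ⟨a1, a2, a3, a4⟩ := ℱ.c4_sub (by omega) hw.2
    exact hK w (ℱ.c3_rot (by omega) a1) (ℱ.c3_rot (by omega) a2)
  hy := by
    refine Finset.one_lt_card.2 ⟨y, (ℱ.mem_cls _ _).2 rfl, u₂, (ℱ.mem_cls _ _).2 ?_, h2'⟩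
    exact (ℱ.c1_of_c2 (by omega) h2).2
  h1 := h1
  h2 := by
    have h := two2 (ℱ.fix x) (by omega) (v := y) (w := u₂)
      (by rw [ℱ.fix_c1 (by omega), ℱ.fix_c1 (by omega)]; exact h2) h2'
    refine h.trans (Finset.card_le_card ?_)
    intro w hw
    rw [mem_filter] at hw ⊢
    have h4 := hw.2
    rw [ℱ.fix_c2 (by omega), ℱ.fix_c2 (by omega)] at h4
    exact ⟨mem_univ _, ℱ.c3_swap (by omega) (ℱ.c3_rot (by omega) h4)⟩
  h3 := by
    have h := two2 ((ℱ.fix x).fix u₂) (by omega) (v := y) (w := u₃)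
      (by rw [(ℱ.fix x).fix_c1 (by omega), (ℱ.fix x).fix_c1 (by omega), ℱ.fix_c2 (by omega),
            ℱ.fix_c2 (by omega)]; exact h3) h3'
    refine h.trans (Finset.card_le_card ?_)
    intro w hw
    rw [mem_filter] at hw ⊢
    have h4 := hw.2
    rw [(ℱ.fix x).fix_c2 (by omega), (ℱ.fix x).fix_c2 (by omega), ℱ.fix_c3 (by omega),
      ℱ.fix_c3 (by omega)] at h4
    refine ⟨mem_univ _, ?_⟩
    have h0 := ℱ.sub 4 4 (by omega) (by omega) (fun i => if i = 0 then 2 else if i = 3 then 3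
      else i - 1) (by intro i _; split_ifs <;> omega) _ _ h4
    rw [ℱ.c4_eq (by omega), ℱ.c4_eq (by omega)] at h0
    simpa [ins] using h0

theorem blockStmt (hUp : H920.UpMixStmt) : H920.BlockStmt := by
  intro V ι _ _ _ G l' X ℱ x hG hl' hD hCl hHv hx hnH
  obtain ⟨l, rfl⟩ : ∃ l, l' = l + 1 := ⟨l' - 1, by omega⟩
  unfold Heavy at hnH
  push Not at hnH
  obtain ⟨y, hyX, hy⟩ := hnH
  unfold HeavyAt at hy
  push Not at hy
  obtain ⟨z, hz1, hzy, hz2⟩ := hy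
  -- the class of `y` over `x`
  have hρ : ∀ w, (ℱ.fix x).c1 w = (ℱ.fix x).c1 y ↔ ℱ.c2 x w = ℱ.c2 x y := fun w => by
    rw [ℱ.fix_c1 (by omega), ℱ.fix_c1 (by omega)]
  have hc1 : ∀ w, ℱ.c2 x w = ℱ.c2 x y → ℱ.c1 w = ℱ.c1 y := fun w h =>
    (ℱ.c1_of_c2 (by omega) h).2
  have hXm : ∀ w, ℱ.c2 x w = ℱ.c2 x y → w ∈ X := fun w h => hCl y w (hc1 w h).symm hyX
  set n := ((ℱ.fix x).cls ((ℱ.fix x).c1 y)).card with hn
  set s := (ℱ.fix x).val y ((ℱ.fix x).c2 y z) with hs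
  have hzx : ℱ.c2 x z = ℱ.c2 x y := (hρ z).1 hz1
  have hncls : n ≤ (ℱ.cls (ℱ.c1 y)).card := by
    refine Finset.card_le_card fun w hw => ?_
    rw [Cfg.mem_cls] at hw ⊢
    exact hc1 w ((hρ w).1 hw)
  have hs2 : 2 ≤ s := two2 (ℱ.fix x) (by omega) hz1 hzy.symm
  have hn0 : 0 < n := by
    have : 0 < 2 ^ G * s := by positivity
    omega
  -- `x` is not determined by `y`
  have hy1 : 2 ≤ (univ.filter fun w => ℱ.c2 y w = ℱ.c2 y x).card := by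
    by_contra hlt
    have h1 : 0 < (univ.filter fun w => ℱ.c2 y w = ℱ.c2 y x).card := card_pos.2 ⟨x, by simp⟩
    have h2 : (univ.filter fun w => ℱ.c2 y w = ℱ.c2 y x).card ≤ 1 := by omega
    have h3 : ∀ w, ℱ.c2 y w = ℱ.c2 y x → w = x := fun w hw =>
      Finset.card_le_one.1 h2 w (by simpa using hw) x (by simp)
    have h4 : ℱ.val y (ℱ.c2 y z) ≤ s := by
      refine Finset.card_le_card fun w hw => ?_
      rw [mem_filter] at hw ⊢
      refine ⟨mem_univ _, ?_⟩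
      rw [ℱ.fix_c2 (by omega), ℱ.fix_c2 (by omega)]
      obtain ⟨e, he⟩ := ℱ.ext2 (by omega) hw.2.symm
      have h5 := he x
      have h6 : e x = x := h3 _ (ℱ.c3_sub (by omega) h5).2.1.symm
      rw [h6] at h5
      exact (ℱ.c3_rot (by omega) (ℱ.c3_rot (by omega) h5)).symm
    have h5 := hHv y hyX z (hc1 z hzx) hzy
    have h6 : 2 ^ G * ℱ.val y (ℱ.c2 y z) ≤ 2 ^ G * s := Nat.mul_le_mul_left _ h4
    omega
  have h1y : ∀ y₀, ℱ.c2 x y₀ = ℱ.c2 x y →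
      2 ≤ (univ.filter fun w => ℱ.c2 y₀ w = ℱ.c2 y₀ x).card := by
    intro y₀ h
    have h2 : ℱ.c2 y₀ x = ℱ.c2 y x := ℱ.c2_swap (by omega) h
    have h3 := ℱ.val_eq (by omega) (hc1 y₀ h) (ℱ.c2 y x)
    unfold Cfg.val at h3
    rw [h2, h3]
    exact hy1
  have h2G : 0 < 2 ^ (2 * G) := by positivity
  rcases Nat.lt_or_ge (2 * n) (s * 2 ^ (2 * G)) with hcase | hcase
  · -- the colour is dense over `x`
    set Q : Finset V := univ.filter fun w => (ℱ.fix x).c2 y w = (ℱ.fix x).c2 y z with hQ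
    have hQc : Q.card = s := rfl
    have hQw : ∀ w ∈ Q, ℱ.c3 x y w = ℱ.c3 x y z := by
      intro w hw
      rw [hQ, mem_filter, ℱ.fix_c2 (by omega), ℱ.fix_c2 (by omega)] at hw
      exact hw.2
    have hQx : ∀ w ∈ Q, ℱ.c2 x w = ℱ.c2 x y := fun w hw =>
      ((ℱ.c3_sub (by omega) (hQw w hw)).2.1).trans hzx
    have hQs : Q ⊆ (ℱ.fix x).cls ((ℱ.fix x).c1 y) := fun w hw => by
      rw [Cfg.mem_cls]
      exact (hρ w).2 (hQx w hw)
    have hT : (ℱ.fix x).c2 y z ∈ (ℱ.fix x).rels ((ℱ.fix x).c1 y) ((ℱ.fix x).c1 y) :=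
      (Cfg.mem_rels _ _ _ _).2 ⟨y, z, rfl, hz1, rfl⟩
    have b1 := bad_count (ℱ.fix x) (by omega) (hD x) (v₀ := y) rfl hT hQs
    have b2 := hUp V ι (l + 1) (2 ^ (6 * G + 5)) (ℱ.fix x) ((ℱ.fix x).c1 y) ((ℱ.fix x).c2 y z) y Q
      (by omega) (hD x) rfl hT hQs
    rw [← hn, ← hs, hQc] at b1 b2
    set B1 := ((ℱ.fix x).cls ((ℱ.fix x).c1 y)).filter fun v => 2 * n *
      (Q.filter fun z_1 => (ℱ.fix x).c2 v z_1 = (ℱ.fix x).c2 y z).card < s * s with hB1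
    set B2 := ((ℱ.fix x).cls ((ℱ.fix x).c1 y)).filter fun v => 2 * (s * s) <
      n * (Q.filter fun z_1 => (ℱ.fix x).c2 v z_1 = (ℱ.fix x).c2 y z).card with hB2
    have hcube : 8 * n ^ 3 < s ^ 3 * 2 ^ (6 * G) := by
      have h := Nat.pow_lt_pow_left hcase (n := 3) (by norm_num)
      have e1 : (2 * n) ^ 3 = 8 * n ^ 3 := by ring
      have e2 : (s * 2 ^ (2 * G)) ^ 3 = s ^ 3 * 2 ^ (6 * G) := by
        rw [mul_pow, ← pow_mul]
        congr 2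
        omega
      rw [e1, e2] at h
      exact h
    have hlt : B1.card + B2.card < s := by
      by_contra hge
      push Not at hge
      have h1 : s * (s * s * 2 ^ (6 * G + 5)) ≤ (B1.card + B2.card) * (s * s * 2 ^ (6 * G + 5)) :=
        Nat.mul_le_mul_right _ hge
      have h2 : (B1.card + B2.card) * (s * s * 2 ^ (6 * G + 5)) ≤ 8 * n ^ 3 := by
        rw [add_mul]
        omega
      have h3 : s * (s * s * 2 ^ (6 * G + 5)) = 32 * (s ^ 3 * 2 ^ (6 * G)) := by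
        rw [pow_add]; ring
      omega
    obtain ⟨u₃, hu₃, hu₃'⟩ : ∃ u ∈ Q, u ∉ B1 ∪ B2 := by
      by_contra hno
      push Not at hno
      have h1 : Q.card ≤ (B1 ∪ B2).card := Finset.card_le_card hno
      have h2 := Finset.card_union_le B1 B2
      omega
    have hu₃C := hQs hu₃
    rw [mem_union, not_or, hB1, hB2, mem_filter, mem_filter, not_and, not_and, not_lt, not_lt]
      at hu₃'
    have g1 := hu₃'.1 hu₃C
    have g2 := hu₃'.2 hu₃C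
    set K := Q.filter fun z_1 => (ℱ.fix x).c2 u₃ z_1 = (ℱ.fix x).c2 y z with hK
    have hK0 : 0 < K.card := by
      by_contra h0
      have h0' : K.card = 0 := by omega
      rw [h0'] at g1
      have : 0 < s * s := by positivity
      omega
    obtain ⟨y₀, hy₀⟩ := Finset.card_pos.1 hK0
    have hy₀' := hy₀
    rw [hK, mem_filter, ℱ.fix_c2 (by omega), ℱ.fix_c2 (by omega)] at hy₀'
    obtain ⟨hyQ, hyS⟩ := hy₀'
    refine ⟨x, hx, y, hyX, u₃, hXm _ (hQx _ hu₃), y₀, hXm _ (hQx _ hyQ), ?_⟩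
    refine mk_block ℱ (by omega) (h1y _ (hQx _ hyQ)) (hQx _ hyQ).symm ?_
      ((hQw _ hu₃).trans (hQw _ hyQ).symm) ?_ n ?_ K ?_ ?_
    · intro h
      have := (ℱ.eq_of_c2 (by omega) (ℱ.c3_sub (by omega) (hQw _ hyQ)).2.2).1 h.symm
      exact hzy this.symm
    · intro h
      have := (ℱ.eq_of_c2 (by omega) (ℱ.c3_sub (by omega) hyS).2.2).1 h.symm
      exact hzy this.symm
    · rw [hc1 _ (hQx _ hyQ)]
      exact hncls
    · intro w hw1 hw2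
      rw [hK, mem_filter, hQ, mem_filter, ℱ.fix_c2 (by omega), ℱ.fix_c2 (by omega),
        ℱ.fix_c2 (by omega)]
      exact ⟨⟨mem_univ _, hw1.trans (hQw _ hyQ)⟩, hw2.trans hyS⟩
    · have h1 : K.card * 2 ^ (2 * G) * n ≤ 2 * n * n := by
        calc K.card * 2 ^ (2 * G) * n = (n * K.card) * 2 ^ (2 * G) := by ring
          _ ≤ (2 * (s * s)) * 2 ^ (2 * G) := Nat.mul_le_mul_right _ g2
          _ = 2 * ((2 ^ G * s) * (2 ^ G * s)) := by
            rw [show 2 * G = G + G by ring, pow_add]; ring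
          _ ≤ 2 * (n * n) := Nat.mul_le_mul_left _ (Nat.mul_le_mul hz2 hz2)
          _ = 2 * n * n := by ring
      exact Nat.le_of_mul_le_mul_right h1 hn0
  · -- the colour is thin over `x`
    obtain ⟨u₃, hu₃, hu₃z⟩ : ∃ u ∈ (univ.filter fun w => (ℱ.fix x).c2 y w = (ℱ.fix x).c2 y z),
        u ≠ z := Finset.exists_mem_ne (by exact hs2) z
    rw [mem_filter, ℱ.fix_c2 (by omega), ℱ.fix_c2 (by omega)] at hu₃
    have hu₃x : ℱ.c2 x u₃ = ℱ.c2 x y := ((ℱ.c3_sub (by omega) hu₃.2).2.1).trans hzx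
    refine ⟨x, hx, y, hyX, u₃, hXm _ hu₃x, z, hXm _ hzx, ?_⟩
    refine mk_block ℱ (by omega) (h1y _ hzx) hzx.symm hzy hu₃.2 hu₃z.symm n ?_
      (univ.filter fun w => (ℱ.fix x).c2 y w = (ℱ.fix x).c2 y z) ?_ ?_
    · rw [hc1 _ hzx]
      exact hncls
    · intro w hw1 hw2
      rw [mem_filter, ℱ.fix_c2 (by omega), ℱ.fix_c2 (by omega)]
      exact ⟨mem_univ _, hw1⟩
    · exact hcase

end Vale.Agent.P319.S2.H257
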